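import Vale.Agent.P092RK.Av

/-!
P092 (helper90), block REL, part A: the estimate at one point of the path.
-/

set_option linter.all false

open scoped InnerProductSpace ENNReal NNReal CompactlySupported Pointwise
open MeasureTheory Filter Topology ContinuousLinearMap Set ProbabilityTheory

namespace Vale.Agent.P092RX

open Vale.Agent.P092CP Vale.Agent.P092RD Vale.Agent.P092TH Vale.Agent.P092RK
open Vale.Agent.P092.RC (Cm Moore)

theorem lint_sq_le {X : Type} [MeasurableSpace X] (ν : Measure X) {f : X → ℝ≥0∞}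
    (hf : AEMeasurable f ν) : (∫⁻ x, f x ∂ν) ^ 2 ≤ ν univ * ∫⁻ x, f x ^ 2 ∂ν := by
  have h := ENNReal.lintegral_mul_le_Lp_mul_Lq ν Real.HolderConjugate.two_two
    (f := fun _ => 1) aemeasurable_const hf
  simp only [Pi.mul_apply, one_mul, ENNReal.rpow_two, one_pow, lintegral_const] at h
  refine (pow_le_pow_left' h 2).trans_eq ?_
  rw [mul_pow, ← ENNReal.rpow_two, ← ENNReal.rpow_two, ← ENNReal.rpow_mul, ← ENNReal.rpow_mul]
  norm_num

section weak

variable {X K : Type} [MeasurableSpace X] [NormedAddCommGroup K] [InnerProductSpace ℂ K]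
  [CompleteSpace K] {ν : Measure X} {T T' : K →L[ℂ] K} {t t' : X → K →L[ℂ] K}

/-- `T` is the weak integral of `t` -/
structure Wr (ν : Measure X) (T : K →L[ℂ] K) (t : X → K →L[ℂ] K) : Prop where
  meas : ∀ ξ, AEStronglyMeasurable (fun h => t h ξ) ν
  int : ∀ η ξ, Integrable (fun h => ⟪η, t h ξ⟫_ℂ) ν
  eq : ∀ η ξ, ⟪η, T ξ⟫_ℂ = ∫ h, ⟪η, t h ξ⟫_ℂ ∂ν

theorem Wr.add (h : Wr ν T t) (h' : Wr ν T' t') : Wr ν (T + T') fun x => t x + t' x :=
  ⟨fun ξ => (h.meas ξ).add (h'.meas ξ), fun η ξ => by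
    simp only [add_apply, inner_add_right]; exact (h.int η ξ).add (h'.int η ξ), fun η ξ => by
    simp only [add_apply, inner_add_right]
    rw [h.eq, h'.eq, integral_add (h.int η ξ) (h'.int η ξ)]⟩

theorem Wr.smul (c : ℂ) (h : Wr ν T t) : Wr ν (c • T) fun x => c • t x :=
  ⟨fun ξ => (h.meas ξ).const_smul c, fun η ξ => by
    simpa only [smul_apply, inner_smul_right] using (h.int η ξ).const_mul c, fun η ξ => by
    simp only [smul_apply, inner_smul_right]
    rw [h.eq, integral_const_mul]⟩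

theorem Wr.congr (h : Wr ν T t) (e : ∀ x, t x = t' x) : Wr ν T t' := (funext e : t = t') ▸ h

theorem Wr.sub (h : Wr ν T t) (h' : Wr ν T' t') : Wr ν (T - T') fun x => t x - t' x := by
  simpa only [neg_smul, one_smul, sub_eq_add_neg] using h.add (h'.smul (-1))

theorem Wr.mul (a : K →L[ℂ] K) (h : Wr ν T t) : Wr ν (a * T) fun x => a * t x :=
  ⟨fun ξ => a.continuous.comp_aestronglyMeasurable (h.meas ξ), fun η ξ => by
    simpa only [mul_ap, adjoint_inner_left] using h.int (adjoint a η) ξ, fun η ξ => by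
    simpa only [mul_ap, adjoint_inner_left] using h.eq (adjoint a η) ξ⟩

theorem Wr.sum {ι : Type} (s : Finset ι) {T : ι → K →L[ℂ] K} {t : ι → X → K →L[ℂ] K}
    (h : ∀ i, Wr ν (T i) (t i)) : Wr ν (∑ i ∈ s, T i) fun x => ∑ i ∈ s, t i x := by
  classical
  induction s using Finset.induction_on with
  | empty => exact ⟨fun _ => aestronglyMeasurable_const, fun _ _ => by simp, fun _ _ => by simp⟩
  | insert i s hi ih => simpa only [Finset.sum_insert hi] using (h i).add ih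

theorem Wr.enorm (h : Wr ν T t) {A : Set X} (hA : MeasurableSet A) {ξ : K}
    (h0 : ∀ x, x ∉ A → t x ξ = 0) : ‖T ξ‖ₑ ^ 2 ≤ ν A * ∫⁻ x in A, ‖t x ξ‖ₑ ^ 2 ∂ν := by
  have h1 : ‖T ξ‖ₑ * ‖T ξ‖ₑ ≤ ‖T ξ‖ₑ * ∫⁻ x in A, ‖t x ξ‖ₑ ∂ν := by
    have e : ‖T ξ‖ₑ * ‖T ξ‖ₑ = ‖⟪T ξ, T ξ⟫_ℂ‖ₑ := by
      rw [inner_self_eq_norm_sq_to_K, enorm_pow, sq]
      simp [← ofReal_norm]
    rw [e, h.eq, ← setIntegral_eq_integral_of_forall_compl_eq_zero (s := A)
      fun x hx => by rw [h0 x hx, inner_zero_right],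
      ← lintegral_const_mul' _ _ enorm_ne_top]
    refine (enorm_integral_le_lintegral_enorm _).trans (lintegral_mono fun x => ?_)
    simp only [← ofReal_norm]
    rw [← ENNReal.ofReal_mul (norm_nonneg _)]
    exact ENNReal.ofReal_le_ofReal (norm_inner_le_norm _ _)
  have h2 := lint_sq_le (ν.restrict A) (h.meas ξ).enorm.restrict
  rw [Measure.restrict_apply_univ] at h2
  refine le_trans ?_ h2
  by_cases h3 : ‖T ξ‖ₑ = 0
  · simp [h3]
  · exact pow_le_pow_left' ((ENNReal.mul_le_mul_iff_right h3 enorm_ne_top).1 h1) 2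

end weak

variable {G G' K : Type} [Group G] [TopologicalSpace G] [IsTopologicalGroup G]
  [LocallyCompactSpace G] [SecondCountableTopology G] [T2Space G] [MeasurableSpace G] [BorelSpace G]
  [Group G'] [TopologicalSpace G'] [IsTopologicalGroup G'] [LocallyCompactSpace G']
  [SecondCountableTopology G'] [T2Space G'] [MeasurableSpace G'] [BorelSpace G']
  [NormedAddCommGroup K] [InnerProductSpace ℂ K] [CompleteSpace K] {μ : Measure G}
  [μ.IsHaarMeasure] {μ' : Measure G'} [μ'.IsHaarMeasure] {W : Set (K →L[ℂ] K)}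

section side

variable (S : Side μ W) {V L : Set G} {g : G → ℂ}

theorem wr_Av (hV : IsCompact V) (hL : IsCompact L) (hg : Bd g) (D : K →L[ℂ] K) :
    Wr μ (Av S V L D g) fun h => g h • (S.π h * (S.P L * D * S.P V⁻¹) * S.π h⁻¹) := by
  have e : ∀ η ξ h, ⟪η, (g h • (S.π h * (S.P L * D * S.P V⁻¹) * S.π h⁻¹)) ξ⟫_ℂ =
      g h * ⟪S.P L (S.π h⁻¹ η), D (S.P V⁻¹ (S.π h⁻¹ ξ))⟫_ℂ := fun η ξ h => by
    rw [smul_apply, inner_smul_right, ← S.adjoint_P hL.measurableSet, adjoint_inner_left,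
      ← S.adj h, adjoint_inner_left, S.adjoint_P hL.measurableSet, S.adj]
    rfl
  refine ⟨fun ξ => hg.meas.aestronglyMeasurable.smul (S.cont_conj _ ξ).aestronglyMeasurable,
    fun η ξ => ?_, fun η ξ => ?_⟩
  · simp only [e]; exact int_Av S hV hL hg D η ξ
  · simp only [e]; exact inner_Av S hV hL hg D η ξ

theorem bd_win (hV : IsCompact V) (hg : Bd g) : Bd fun x => ∫ u in V, g (x * u) ∂μ :=
  let ⟨b, _, hb⟩ := hg.nonneg
  ⟨((hg.meas.comp measurable_mul).stronglyMeasurable.integral_prod_right').measurable,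
    b * μ.real V, fun x => norm_setIntegral_le_of_norm_le_const hV.measure_lt_top fun u _ => hb _⟩

/-- the windows are averages of position projections -/
theorem wr_win (hV : IsCompact V) (hg : Bd g) :
    Wr μ (S.m fun x => ∫ u in V, g (x * u) ∂μ) fun h => g h • (S.π h * S.P V⁻¹ * S.π h⁻¹) := by
  have mV := hV.measurableSet
  have h1 := wr_Av S hV hV.inv hg 1
  rw [mul_one, S.P_sq mV.inv] at h1
  refine ⟨h1.meas, h1.int, fun η ξ => ?_⟩
  obtain ⟨b, b0, hb⟩ := hg.nonneg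
  have i1 : Integrable (fun x => ⟪S.U η x, S.U ξ x⟫_ℂ) μ := L2.integrable_inner _ _
  have i2 : Integrable (V.indicator (1 : G → ℂ)) μ :=
    (integrable_indicator_iff mV).2 (integrableOn_const hV.measure_ne_top)
  have i3 := ((measurePreserving_prod_inv_mul μ μ).integrable_comp_of_integrable
    (i1.mul_prod i2)).bdd_mul (c := b) (f := fun p : G × G => g p.2)
    (hg.meas.comp measurable_snd).aestronglyMeasurable (.of_forall fun p => hb _)
  have e : ∀ h, ⟪η, (g h • (S.π h * S.P V⁻¹ * S.π h⁻¹)) ξ⟫_ℂ =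
      ∫ x, g h * (⟪S.U η x, S.U ξ x⟫_ℂ * V.indicator 1 (x⁻¹ * h)) ∂μ := fun h => by
    rw [smul_apply, inner_smul_right, Side.P, S.cov (Bd.ind mV.inv),
      S.inner_m ((Bd.ind mV.inv).comp (measurable_const_mul _)), ← integral_const_mul]
    refine integral_congr_ae (.of_forall fun x => ?_)
    by_cases a : x⁻¹ * h ∈ V <;> simp [indicator, a]
  simp only [e]
  rw [S.inner_m (bd_win hV hg), ← integral_integral_swap i3]
  refine integral_congr_ae (.of_forall fun x => ?_)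
  simp only
  rw [← integral_mul_left_eq_self (μ := μ) _ x, ← integral_mul_const, ← integral_indicator mV]
  refine integral_congr_ae (.of_forall fun u => ?_)
  by_cases a : u ∈ V <;> simp [indicator, a]

theorem P_pi_P (mV : MeasurableSet V) {j : G} (hj : j ∉ V * V) : S.P V⁻¹ * S.π j⁻¹ * S.P V = 0 := by
  rw [mul_assoc, S.π_P mV, ← mul_assoc, S.P_mul mV.inv (measurable_const_mul _ mV)]
  convert zero_mul _
  convert S.P_empty
  refine eq_empty_of_forall_notMem fun x hx => hj ⟨j * x, by simpa using hx.2, x⁻¹, hx.1, by simp⟩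

end side

variable (C : Cpl μ μ' W) {V : Set G'}

/-- **L1**: almost orthogonal pieces -/
theorem tr_le_of_wr (hV : IsCompact V) {T : K →L[ℂ] K} {t : G' → K →L[ℂ] K} (hT : Cm W T)
    (ht : ∀ h, Cm W (t h)) (w : Wr μ' T t)
    (hs : ∀ h, ∃ a, t h = a * (C.t.P V⁻¹ * C.t.π h⁻¹)) {B : G' → ℝ≥0∞} (mB : Measurable B)
    (hB : ∀ h, C.t.Tr (t h) ≤ B h) : μ' V * C.t.Tr T ≤ μ' (V * V) ^ 2 * ∫⁻ h, B h ∂μ' := by
  have := C.t.cnt
  have := C.t.right
  have mV := hV.measurableSet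
  have mVV := (hV.mul hV).measurableSet
  have m1 : MeasurableSet {p : G' × G' | p.1 * p.2 ∈ V * V} := measurable_mul mVV
  have key : ∀ j, C.t.Tr (C.t.P V * (C.t.π j * adjoint T * C.t.π j⁻¹)) ≤
      μ' (V * V) * ∫⁻ h, {p : G' × G' | p.1 * p.2 ∈ V * V}.indicator 1 (j, h) * B h ∂μ' := by
    intro j
    have cb : Cm W (C.t.π j⁻¹ * C.t.P V * C.t.π j⁻¹⁻¹) := C.t.conj _ (C.t.cm_P mV) _
    have nb : ‖C.t.π j⁻¹ * C.t.P V * C.t.π j⁻¹⁻¹‖ₑ ≤ 1 := by
      rw [← ofReal_norm]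
      exact ENNReal.ofReal_le_one.2 ((C.t.norm_conj_le _ _).trans (C.t.norm_P_le mV))
    have e1 : C.t.P V * (C.t.π j * adjoint T * C.t.π j⁻¹) = adjoint
        (C.t.π j * (T * (C.t.π j⁻¹ * C.t.P V * C.t.π j⁻¹⁻¹)) * C.t.π j⁻¹) := by
      simp only [adj_mul, C.t.adj, C.t.adjoint_P mV, inv_inv, mul_assoc]
      rw [← mul_assoc (C.t.π j) (C.t.π j⁻¹), pi_mul_inv, one_mul]
    have mA : MeasurableSet {h | j * h ∈ V * V} := measurable_const_mul j mVV
    rw [e1, C.tr_adj _ (C.t.conj _ (cm_mul hT cb) j), C.t.Tr_conj, C.t.Tr_eq_tsum (cm_mul hT cb)]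
    calc _ ≤ μ' C.t.D * ∑' γ, μ' (V * V) * ∫⁻ h in {h | j * h ∈ V * V},
          ‖(t h * (C.t.π j⁻¹ * C.t.P V * C.t.π j⁻¹⁻¹)) (C.t.Om γ)‖ₑ ^ 2 ∂μ' := by
          refine mul_le_mul_right (ENNReal.tsum_le_tsum fun γ => ?_) _
          rw [← measure_preimage_mul μ' j]
          refine w.enorm mA fun h hh => ?_
          obtain ⟨a, ha⟩ := hs h
          have e2 : t h * (C.t.π j⁻¹ * C.t.P V * C.t.π j⁻¹⁻¹) =
              a * (C.t.P V⁻¹ * C.t.π (j * h)⁻¹ * C.t.P V) * C.t.π j⁻¹⁻¹ := by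
            rw [ha, mul_inv_rev, map_mul]; simp only [mul_assoc]
          rw [P_pi_P C.t mV hh, mul_zero, zero_mul] at e2
          exact ap_eq e2 _
      _ = μ' (V * V) * ∫⁻ h in {h | j * h ∈ V * V},
          C.t.Tr (t h * (C.t.π j⁻¹ * C.t.P V * C.t.π j⁻¹⁻¹)) ∂μ' := by
          have m2 : ∀ γ, AEMeasurable (fun h => ‖(t h * (C.t.π j⁻¹ * C.t.P V * C.t.π j⁻¹⁻¹))
              (C.t.Om γ)‖ₑ ^ 2) (μ'.restrict {h | j * h ∈ V * V}) := fun γ =>
            ((w.meas _).enorm.pow_const 2).restrict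
          rw [ENNReal.tsum_mul_left, mul_left_comm, ← lintegral_tsum m2,
            ← lintegral_const_mul' _ _ C.t.vol]
          simp only [C.t.Tr_eq_tsum (cm_mul (ht _) cb)]
      _ ≤ _ := by
          rw [← lintegral_indicator mA]
          refine mul_le_mul_right (lintegral_mono fun h => ?_) _
          by_cases a : j * h ∈ V * V
          · have := (C.Tr_mul_le (ht h) cb).trans (mul_le_mul' (pow_le_one' nb 2) (hB h))
            simpa [indicator, a] using this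
          · simp [indicator, a]
  rw [← C.tr_adj T hT, tr_cut C.t (C.adj_cm hT) mV]
  refine (lintegral_mono key).trans_eq ?_
  have m3 := (measurable_one.indicator m1 : Measurable (indicator _ (1 : G' × G' → ℝ≥0∞)))
  rw [lintegral_const_mul' _ _ (hV.mul hV).measure_ne_top,
    lintegral_lintegral_swap (m3.mul (mB.comp measurable_snd)).aemeasurable, sq, mul_assoc,
    ← lintegral_const_mul _ mB]
  congr 1
  refine lintegral_congr fun h => ?_
  refine (lintegral_mul_const _ (m3.comp measurable_prodMk_right)).trans ?_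
  rw [← measure_preimage_mul_right μ' h, ← lintegral_indicator_one (measurable_mul_const h mVV)]
  rfl

/-- **L2**: the pieces -/
theorem exists_maj {Z : Type} [MeasurableSpace Z] [MulAction G' Z] [MeasurableSMul₂ G' Z]
    {Ψ : POM Z K} (cm : ∀ F, Bd F → Cm W (Ψ.f F)) (cov : Cov C.t.π Ψ) {D : K →L[ℂ] K}
    (hD : Cm W D) {g : G' × Z → ℝ≥0∞} (mg : Measurable g) {c : ℝ≥0∞}
    (hc : ∀ z, ∫⁻ h, g (h, z) ∂μ' ≤ c) : ∃ B : G' → ℝ≥0∞, Measurable B ∧
      (∀ h k, Bd k → (∀ z, ‖k (h • z)‖ₑ ^ 2 ≤ g (h, z)) →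
        C.t.Tr (Ψ.f k * (C.t.π h * D * C.t.π h⁻¹)) ≤ B h) ∧ ∫⁻ h, B h ∂μ' ≤ c * C.t.Tr D := by
  have := C.t.cnt
  refine ⟨fun h => μ' C.t.D * ∑' γ, ∫⁻ z, g (h, z) ∂Ψ.ν (D (C.t.Om γ)),
    (Measurable.ennreal_tsum fun γ => mg.lintegral_prod_right').const_mul _,
    fun h k hk hg => ?_, ?_⟩
  · have b1 : Bd fun z => k (h • z) := hk.comp (measurable_const_smul h)
    have e := cov h _ b1
    simp only [smul_inv_smul] at e
    rw [← e, ← C.t.conj_mul, C.t.Tr_conj, C.t.Tr_eq_tsum (cm_mul (cm _ b1) hD)]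
    exact mul_le_mul_right (ENNReal.tsum_le_tsum fun γ =>
      (enorm_f_le Ψ b1 _).trans (lintegral_mono fun z => hg z)) _
  · rw [lintegral_const_mul' _ _ C.t.vol, lintegral_tsum fun γ =>
      mg.lintegral_prod_right'.aemeasurable, C.t.Tr_eq_tsum hD, mul_left_comm c,
      ← ENNReal.tsum_mul_left (a := c)]
    refine mul_le_mul_right (ENNReal.tsum_le_tsum fun γ => ?_) _
    refine (lintegral_lintegral_swap (f := fun h z => g (h, z)) mg.aemeasurable).trans_le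
      ((lintegral_mono hc).trans ?_)
    rw [lintegral_const]
    exact mul_le_mul_right (Ψ.fin _) _

section loc

variable {C} {Y Z₀ : Type} [TopologicalSpace Y] [MeasurableSpace Y] [MulAction G' Y]
  [MeasurableSpace Z₀] [MulAction G' Z₀] {dir : Z₀ → Y} {E : POM Y K} {Ψ : POM Z₀ K}
  {φ : Y → ℂ} {F : Z₀ → ℂ} {u : K →L[ℂ] K} {κ : G' → Y → ℂ} {S : Set G}

theorem loc_mod' (h : Loc C dir E Ψ) (md : Measurable dir) (hφ : Bd φ) (hF : Bd F) :
    Ψ.f (φ ∘ dir * F) = Ψ.f F * E.f φ := by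
  have h1 := congrArg star (h.mod _ _ hφ.star hF.star)
  have b : Bd (star φ ∘ dir * star F) := (Bd.comp hφ.star md).mul hF.star
  rw [star_mul, Ψ.star_f hF.star, E.star_f hφ.star, star_star, star_star, Ψ.star_f b] at h1
  rw [← h1]
  congr 1
  funext z
  simp

theorem loc_comm (h : Loc C dir E Ψ) (md : Measurable dir) (hφ : Bd φ) (hF : Bd F) :
    Ψ.f F * E.f φ = E.f φ * Ψ.f F := by rw [← loc_mod' h md hφ hF, h.mod _ _ hφ hF]

/-- localisers are stable under the unitaries with a multiplier -/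
theorem loc_cj [MeasurableConstSMul G' Z₀] (h : Loc C dir E Ψ) (md : Measurable dir) (hE : E.IsP)
    (hu : Un C S E κ u) (mκ : ∀ k, Measurable (κ k)) (nκ : ∀ k x, ‖κ k x‖ = 1) :
    Loc C dir E (Ψ.cj u (star u) rfl hu.r) := by
  obtain ⟨u1, u2, -, u4⟩ := hu.mem
  have bκ : ∀ k, Bd (κ k) := fun k => ⟨mκ k, 1, fun x => (nκ k x).le⟩
  refine ⟨fun F hF => cm_mul (cm_mul u1 (h.cm F hF)) (C.adj_cm u1), fun k F hF => ?_,
    fun φ F hφ hF => ?_⟩
  · have b1 : Bd fun z => F (k⁻¹ • z) := hF.comp (measurable_const_smul _)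
    have e1 : C.t.π k * star u * C.t.π k⁻¹ = star u * star (E.f (κ k)) := by
      rw [← star_mul, ← u4, star_eq_adjoint, star_eq_adjoint, C.t.conj_adj]
    have e2 : E.f (κ k) * star (E.f (κ k)) = 1 := by
      rw [E.star_f (bκ k), ← hE.mul _ _ (bκ k) (bκ k).star, ← hE.one]
      congr 1
      funext x
      simp [Complex.mul_conj', nκ]
    have e3 : star u * star (E.f (κ k)) = star (E.f (κ k)) * star u := by
      rw [← star_mul, ← star_mul, u2 _ (bκ k)]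
    rw [POM.cj_f, POM.cj_f, C.t.conj_mul, C.t.conj_mul, u4, h.cov k F hF, e1, e3, ← u2 _ (bκ k),
      mul_assoc u, ← loc_comm h md (bκ k) b1]
    simp only [mul_assoc]
    rw [← mul_assoc (E.f (κ k)), e2, one_mul]
  · rw [POM.cj_f, POM.cj_f, h.mod _ _ hφ hF, ← mul_assoc u, u2 _ hφ]
    simp only [mul_assoc]

end loc

variable {Y Y' Z₀ : Type} [TopologicalSpace Y] [MeasurableSpace Y] [BorelSpace Y]
  [SecondCountableTopology Y] [MulAction G' Y] [ContinuousSMul G' Y] [TopologicalSpace Y']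
  [MeasurableSpace Y'] [BorelSpace Y'] [LocallyCompactSpace Y'] [T2Space Y']
  [SecondCountableTopology Y'] [MulAction G' Y'] [ContinuousSMul G' Y'] [TopologicalSpace Z₀]
  [MeasurableSpace Z₀] [BorelSpace Z₀] [SecondCountableTopology Z₀] [MulAction G' Z₀]
  [ContinuousSMul G' Z₀]

theorem wr_wf (hV : Bp μ' V) (y₀ : Y') (p : C_c(Y', ℝ)) :
    Wr μ' (C.t.m fun x => (wf μ' V y₀ p x : ℂ)) fun h => (((μ'.real V)⁻¹ : ℝ) : ℂ) •
      ((p (h • y₀) : ℂ) • (C.t.π h * C.t.P V⁻¹ * C.t.π h⁻¹)) := by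
  have hg : Bd fun h : G' => (p (h • y₀) : ℂ) := (bd_cc p).comp (measurable_smul_const y₀)
  have h1 := (wr_win C.t hV.cpt hg).smul (((μ'.real V)⁻¹ : ℝ) : ℂ)
  rw [← C.t.m_smul _ (bd_win hV.cpt hg)] at h1
  convert h1 using 2
  funext x
  rw [wf, ProbabilityTheory.cond, integral_smul_measure, Pi.smul_apply, integral_complex_ofReal]
  simp [Measure.real]

variable {C} {Op : Set (Y × Y')} {κ : G' → Y → ℂ} {κ' : G' → Y' → ℂ} {e : Y × Y' → ℂ}

theorem bd_ker (k : Ker Op κ κ' e) (y : Y') :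
    Bd ({x | (x, y) ∈ Op}.indicator fun x => e (x, y)) :=
  Bd.indicator ⟨k.meas.comp measurable_prodMk_right, 1, fun x => (k.ne _).le⟩
    (k.opn.preimage (Continuous.prodMk_left y)).measurableSet

theorem conj_ker (k : Ker Op κ κ' e) {E : POM Y K} (hE : Pvm C E) {S : Set G} {u : K →L[ℂ] K}
    (hu : u ∈ Xm C S E κ) (y₀ : Y') (h : G') :
    κ' h (h • y₀) • (C.t.π h * (u * E.f ({x | (x, y₀) ∈ Op}.indicator fun x => e (x, y₀))) *
      C.t.π h⁻¹) = u * E.f ({x | (x, h • y₀) ∈ Op}.indicator fun x => e (x, h • y₀)) := by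
  obtain ⟨-, u2, -, u4⟩ := hu
  have bκ : Bd (κ h) := ⟨k.mκ h, 1, fun x => (k.nκ h x).le⟩
  have b1 := (bd_ker k y₀).comp (measurable_const_smul h⁻¹)
  rw [C.t.conj_mul, u4, hE.cov h _ (bd_ker k y₀), ← u2 _ bκ, mul_assoc, ← hE.isP.mul _ _ bκ b1,
    ← mul_smul_comm, ← E.smul _ (bκ.mul b1)]
  congr 2
  funext x
  by_cases a : (x, h • y₀) ∈ Op
  · have a1 : (h⁻¹ • x, y₀) ∈ Op := by simpa using k.inv h⁻¹ _ _ a
    have a2 := k.rel h _ _ a
    rw [inv_smul_smul] at a2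
    simp only [Pi.smul_apply, Pi.mul_apply, indicator, mem_setOf_eq, a, a1, if_true, smul_eq_mul]
    rw [← a2]; ring
  · have a1 : (h⁻¹ • x, y₀) ∉ Op := fun c => a (by simpa using k.inv h _ _ c)
    simp [indicator, a, a1]

/-- **EST** -/
theorem est (C : Cpl μ μ' W) (hV : Bp μ' V) (y₀ : Y') {dir : Z₀ → Y} (md : Measurable dir) :
    ∃ M, M ≠ ∞ ∧ ∀ (Op : Set (Y × Y')) κ κ' e, Ker Op κ κ' e → EST C V y₀ dir Op e κ κ' M := by
  set a : ℂ := (((μ'.real V)⁻¹ : ℝ) : ℂ) with ha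
  have mV := hV.cpt.measurableSet.inv
  have f1 := hV.cpt.measure_ne_top (μ := μ')
  have f2 := hV.cpt.inv.measure_ne_top (μ := μ')
  have f3 := (hV.cpt.mul hV.cpt).measure_ne_top (μ := μ')
  have f4 := ENNReal.inv_ne_top.2 hV.pos
  refine ⟨(μ' V)⁻¹ * μ' (V * V) ^ 2 * ‖a‖ₑ ^ 2 * 2 * (μ' V⁻¹ + 1), by finiteness,
    fun Op κ κ' e k E Ψ u r L' L Q Q' c f f' n φ p ε hE hΨ hu hr hL' mL pr ap => ?_⟩
  set r₀ := u * E.f ({x | (x, y₀) ∈ Op}.indicator fun x => e (x, y₀)) with hr₀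
  obtain ⟨u1, u2, -, -⟩ := hu.mem
  have bf : Bd f := ⟨ap.bf, 1, ap.nf⟩
  have hΨ' := loc_cj hΨ md hE.isP hu k.mκ k.nκ
  set Ψ' := Ψ.cj u (star u) rfl hu.r with hΨ''
  set g : G' → ℂ := fun h => f' (h • y₀) * κ' h (h • y₀) with hg
  have ng : ∀ h, ‖g h‖ ≤ 1 := fun h => by simpa [hg, k.nκ'] using ap.nf' (h • y₀)
  have bg : Bd g := ⟨(Complex.continuous_ofReal.comp (f'.continuous.comp
    (continuous_id.smul continuous_const))).measurable.mul (k.cκ'.comp (continuous_id.prodMk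
      (continuous_id.smul continuous_const))).measurable, 1, ng⟩
  have cD : Cm W ((r₀ - C.t.P L' * r) * C.t.P V⁻¹) := cm_mul (cm_sub (cm_mul u1
    (hE.cm _ (bd_ker k y₀))) (cm_mul (C.t.cm_P hL'.measurableSet) hr)) (C.t.cm_P mV)
  set A : Set (G' × Z₀) := {q | q.1 • y₀ ∈ Q' ∧ q.1 • q.2 ∈ L ∧ dir (q.1 • q.2) ∈ Q} with hA
  have mA : MeasurableSet A := ((measurable_fst.smul_const y₀) ap.mQ').inter
    ((measurable_smul mL).inter (md.comp measurable_smul ap.mQ))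
  have m1 : Measurable (A.indicator (1 : G' × Z₀ → ℝ≥0∞)) := measurable_one.indicator mA
  have hc : ∀ z, ∫⁻ h, A.indicator 1 (h, z) ∂μ' ≤ c := fun z =>
    (lintegral_indicator_one (measurable_prodMk_right mA)).trans_le (pr y₀ z)
  obtain ⟨B₁, mB₁, hB₁, iB₁⟩ := exists_maj C hΨ.cm hΨ.cov (C.t.cm_P mV)
    (m1.const_mul (ENNReal.ofReal ε ^ 2)) (c := ENNReal.ofReal ε ^ 2 * c) fun z => by
      rw [lintegral_const_mul' _ _ (by finiteness)]; exact mul_le_mul_right (hc z) _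
  obtain ⟨B₂, mB₂, hB₂, iB₂⟩ := exists_maj C hΨ'.cm hΨ'.cov cD m1 hc
  set ρ : G' → Y → ℂ := fun h => ∑ j, (p j (h • y₀) : ℂ) • φ j - (f' (h • y₀) : ℂ) •
    (f * {x | (x, h • y₀) ∈ Op}.indicator fun x => e (x, h • y₀)) with hρ
  have bs : ∀ h : G', Bd (∑ j, (p j (h • y₀) : ℂ) • φ j) := fun h =>
    Bd.sum _ fun j _ => (ap.bφ j).smul _
  have bρ : ∀ h, Bd (ρ h) := fun h => (bs h).sub ((bf.mul (bd_ker k _)).smul _)
  have eρ : ∀ h x, ρ h x = ∑ j, φ j x * p j (h • y₀) - f x * f' (h • y₀) * e (x, h • y₀) := by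
    intro h x
    simp only [hρ, Pi.sub_apply, Finset.sum_apply, Pi.smul_apply, smul_eq_mul, Pi.mul_apply,
      mul_comm (φ _ x)]
    congr 1
    by_cases a1 : (x, h • y₀) ∈ Op
    · simp only [indicator, mem_setOf_eq, a1, if_true]; ring
    · by_cases a2 : x ∈ Q
      · rw [ap.zf' _ fun a3 => a1 (ap.sub ⟨a2, a3⟩)]; simp
      · rw [ap.zf _ a2]; simp
  have bL := Bd.ind mL
  have b1 : ∀ h, Bd (ρ h ∘ dir * L.indicator 1) := fun h => (Bd.comp (bρ h) md).mul bL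
  have b2 : ∀ h, Bd ((g h • f) ∘ dir * L.indicator 1) := fun h => (Bd.comp (bf.smul _) md).mul bL
  have w := ((Wr.sum Finset.univ fun j => (wr_wf C hV y₀ (p j)).mul (E.f (φ j))).sub
    (((wr_Av C.t hV.cpt hL' bg r).smul a).mul (star u * E.f f))).mul (Ψ.P L)
  have id : ∀ h, Ψ.P L * (∑ j, E.f (φ j) * a • ((p j (h • y₀) : ℂ) •
      (C.t.π h * C.t.P V⁻¹ * C.t.π h⁻¹)) - star u * E.f f * a • g h •
        (C.t.π h * (C.t.P L' * r * C.t.P V⁻¹) * C.t.π h⁻¹)) =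
      a • (Ψ.f (ρ h ∘ dir * L.indicator 1) * (C.t.π h * C.t.P V⁻¹ * C.t.π h⁻¹) +
        star u * (Ψ'.f ((g h • f) ∘ dir * L.indicator 1) *
          (C.t.π h * ((r₀ - C.t.P L' * r) * C.t.P V⁻¹) * C.t.π h⁻¹))) := fun h => by
    have e1 := conj_ker k hE hu.mem y₀ h
    have e2 : star u * Ψ'.f ((g h • f) ∘ dir * L.indicator 1) =
        g h • (Ψ.P L * (star u * E.f f)) := by
      rw [loc_mod' hΨ' md (bf.smul _) bL, E.smul _ bf, POM.cj_f, ← mul_assoc, ← mul_assoc,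
        ← mul_assoc, hu.l, one_mul, mul_smul_comm, mul_assoc]
      rfl
    have e3 : g h • (star u * E.f f * (C.t.π h * r₀ * C.t.π h⁻¹)) = (f' (h • y₀) : ℂ) •
        E.f (f * {x | (x, h • y₀) ∈ Op}.indicator fun x => e (x, h • y₀)) := by
      rw [hg, mul_smul, ← mul_smul_comm (κ' h _), e1, mul_assoc, ← mul_assoc (E.f f), ← u2 _ bf,
        mul_assoc u, ← mul_assoc (star u), hu.l, one_mul, hE.isP.mul _ _ bf (bd_ker k _)]
    rw [loc_mod' hΨ md (bρ h) bL, ← mul_assoc (star u) (Ψ'.f _), e2, sub_mul r₀, mul_sub (C.t.π h),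
      sub_mul _ _ (C.t.π h⁻¹), C.t.conj_mul h r₀, hρ]
    simp only
    rw [E.sub (bs h) ((bf.mul (bd_ker k _)).smul _), E.smul _ (bf.mul (bd_ker k _)), ← e3,
      E.sum _ fun j _ => (ap.bφ j).smul _]
    simp only [E.smul _ (ap.bφ _)]
    change Ψ.P L * _ = a • (Ψ.P L * _ * _ + _)
    generalize C.t.π h * C.t.P V⁻¹ * C.t.π h⁻¹ = x₁
    generalize C.t.π h * r₀ * C.t.π h⁻¹ = x₂
    generalize C.t.π h * (C.t.P L' * r * C.t.P V⁻¹) * C.t.π h⁻¹ = x₃
    simp only [mul_sub, sub_mul, Finset.mul_sum, Finset.sum_mul, mul_smul_comm, smul_mul_assoc,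
      mul_assoc, smul_add, smul_sub, Finset.smul_sum]
    abel
  replace w := w.congr id
  have nu : ∀ ξ, ‖(star u : K →L[ℂ] K) ξ‖ = ‖ξ‖ := P092SB.norm_unit (by rw [star_star, hu.r])
  have h1 := tr_le_of_wr C hV.cpt (B := fun h => ‖a‖ₑ ^ 2 * (2 * B₁ h + 2 * B₂ h))
    (cm_mul (hΨ.cm _ bL) (cm_sub (cm_sum _ fun j _ => cm_mul (hE.cm _ (ap.bφ j))
      (C.t.cm_m (bd_wf hV _))) (cm_mul (cm_mul (C.adj_cm u1) (hE.cm _ bf))
        (cm_smul _ (cm_Av C.t hV.cpt hL' bg hr)))))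
    (fun h => cm_smul _ (cm_add (cm_mul (hΨ.cm _ (b1 h)) (C.t.conj _ (C.t.cm_P mV) h))
      (cm_mul (C.adj_cm u1) (cm_mul (hΨ'.cm _ (b2 h)) (C.t.conj _ cD h))))) w
    (fun h => ⟨a • (Ψ.f (ρ h ∘ dir * L.indicator 1) * C.t.π h + star u *
      (Ψ'.f ((g h • f) ∘ dir * L.indicator 1) * (C.t.π h * (r₀ - C.t.P L' * r)))), by
        simp only [smul_mul_assoc, add_mul, mul_assoc, star_eq_adjoint]⟩)
    (((mB₁.const_mul 2).add (mB₂.const_mul 2)).const_mul _) fun h => by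
      rw [C.t.Tr_smul]
      refine mul_le_mul_right ((C.t.Tr_add_le _ _).trans (add_le_add (mul_le_mul_right
        (hB₁ h _ (b1 h) fun z => ?_) _) (mul_le_mul_right ((C.t.Tr_congr fun ξ =>
          nu _).trans_le (hB₂ h _ (b2 h) fun z => ?_)) _))) _
      · by_cases a1 : (h, z) ∈ A
        · rw [indicator_of_mem a1, Pi.mul_apply, indicator_of_mem a1.2.1, Pi.one_apply,
            Pi.one_apply, mul_one, mul_one, Function.comp_apply, eρ, ← ofReal_norm]
          exact pow_le_pow_left' (ENNReal.ofReal_le_ofReal (ap.le _ _)) 2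
        · have : (ρ h ∘ dir * L.indicator 1 : Z₀ → ℂ) (h • z) = 0 := by
            rw [Pi.mul_apply, Function.comp_apply, eρ]
            by_cases a2 : h • y₀ ∈ Q'
            · by_cases a3 : h • z ∈ L
              · have a4 : dir (h • z) ∉ Q := fun a4 => a1 ⟨a2, a3, a4⟩
                simp [ap.zφ _ _ a4, ap.zf _ a4]
              · simp [a3]
            · simp [ap.zp _ _ a2, ap.zf' _ a2]
          simp [this]
      · by_cases a1 : (h, z) ∈ A
        · rw [indicator_of_mem a1, Pi.mul_apply, indicator_of_mem a1.2.1, Pi.one_apply,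
            Pi.one_apply, mul_one, Function.comp_apply, ← ofReal_norm]
          refine pow_le_one' (ENNReal.ofReal_le_one.2 ?_) 2
          rw [Pi.smul_apply, norm_smul]
          exact mul_le_one₀ (ng h) (norm_nonneg _) (ap.nf _)
        · have : ((g h • f) ∘ dir * L.indicator 1 : Z₀ → ℂ) (h • z) = 0 := by
            by_cases a2 : h • y₀ ∈ Q'
            · by_cases a3 : h • z ∈ L
              · have a4 : dir (h • z) ∉ Q := fun a4 => a1 ⟨a2, a3, a4⟩
                simp [ap.zf _ a4]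
              · simp [a3]
            · simp [hg, ap.zf' _ a2]
          simp [this]
  rw [lintegral_const_mul' _ _ (by finiteness), lintegral_add_left (mB₁.const_mul 2),
    lintegral_const_mul _ mB₁, lintegral_const_mul _ mB₂] at h1
  rw [C.t.Tr_P mV] at iB₁
  rw [mul_assoc (μ' V)⁻¹, mul_assoc (μ' V)⁻¹, mul_assoc (μ' V)⁻¹, mul_assoc (μ' V)⁻¹,
    mul_assoc (μ' V)⁻¹, ← ENNReal.mul_le_iff_le_inv hV.pos f1]
  refine h1.trans ?_
  calc _ ≤ μ' (V * V) ^ 2 * (‖a‖ₑ ^ 2 * (2 * (ENNReal.ofReal ε ^ 2 * c * (μ' V⁻¹ + 1)) +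
        2 * (c * C.t.Tr ((r₀ - C.t.P L' * r) * C.t.P V⁻¹) * (μ' V⁻¹ + 1)))) := by
        gcongr
        · exact iB₁.trans (mul_le_mul_right le_self_add _)
        · exact iB₂.trans (le_mul_of_one_le_right' le_add_self)
    _ = _ := by ring

end Vale.Agent.P092RX
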